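import Vale.Agent.P218LJ.Newton

/-!
# P218 (helper40): the gradient inequality for real-analytic functions
-/

open Filter Topology Metric

namespace Vale.Agent.P218LJ

section inner

variable {E : Type} [NormedAddCommGroup E] [InnerProductSpace ℝ E] [FiniteDimensional ℝ E]

omit [FiniteDimensional ℝ E] in
theorem analyticAt_chi (r : ℝ) (x : E) : AnalyticAt ℝ (fun x : E => r ^ 2 - ‖x‖ ^ 2) x :=
  analyticAt_const.sub (contDiff_norm_sq ℝ (n := ⊤)).contDiffAt.analyticAt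

/-- Minimisation on a level set with a barrier. -/
theorem exists_min {f h : E → ℝ} {r : ℝ} (hf : ContinuousOn f (closedBall 0 r))
    (hh : ContinuousOn h (closedBall 0 r)) (hh0 : ∀ x, 0 ≤ h x) {p : E} (hp : ‖p‖ < r)
    (hs : f p ≠ 0) :
    ∃ z : E, ‖z‖ < r ∧ f z = f p ∧
      h z + f p ^ 2 / (r ^ 2 - ‖z‖ ^ 2) ≤ h p + f p ^ 2 / (r ^ 2 - ‖p‖ ^ 2) ∧
      IsLocalMinOn (fun x => h x + f p ^ 2 / (r ^ 2 - ‖x‖ ^ 2)) {x | f x = f z} z := by
  have hχ : ∀ x : E, ‖x‖ < r → 0 < r ^ 2 - ‖x‖ ^ 2 := fun x hx => by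
    nlinarith [norm_nonneg x]
  obtain ⟨M, hM⟩ : ∃ M, M = h p + f p ^ 2 / (r ^ 2 - ‖p‖ ^ 2) := ⟨_, rfl⟩
  have hs2 : 0 < f p ^ 2 := by positivity
  have hM0 : 0 ≤ M := by
    rw [hM]
    exact add_nonneg (hh0 p) (div_pos hs2 (hχ p hp)).le
  obtain ⟨Y, hY⟩ : ∃ Y : Set E, Y = closedBall 0 r ∩
      (fun x => (f x, M * (r ^ 2 - ‖x‖ ^ 2))) ⁻¹' ({f p} ×ˢ Set.Ici (f p ^ 2)) := ⟨_, rfl⟩
  have hYm : ∀ x, x ∈ Y ↔ ‖x‖ ≤ r ∧ f x = f p ∧ f p ^ 2 ≤ M * (r ^ 2 - ‖x‖ ^ 2) := fun x => by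
    rw [hY]
    simp
  have hYc : IsCompact Y := by
    refine (isCompact_closedBall (0 : E) r).of_isClosed_subset ?_ (hY ▸ Set.inter_subset_left)
    rw [hY]
    refine ContinuousOn.preimage_isClosed_of_isClosed (hf.prodMk ?_) isClosed_closedBall
      (isClosed_singleton.prod isClosed_Ici)
    exact Continuous.continuousOn (by fun_prop)
  have hpY : p ∈ Y := by
    refine (hYm p).2 ⟨hp.le, rfl, ?_⟩
    rw [hM, add_mul, div_mul_cancel₀ _ (hχ p hp).ne']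
    nlinarith [mul_nonneg (hh0 p) (hχ p hp).le]
  have hYχ : ∀ x ∈ Y, 0 < r ^ 2 - ‖x‖ ^ 2 := fun x hx => by
    by_contra h1
    have h2 := mul_nonpos_of_nonneg_of_nonpos hM0 (not_lt.1 h1)
    linarith [((hYm x).1 hx).2.2]
  have hc : ContinuousOn (fun x => h x + f p ^ 2 / (r ^ 2 - ‖x‖ ^ 2)) Y := by
    refine (hh.mono (hY ▸ Set.inter_subset_left)).add (continuousOn_const.div ?_
      fun x hx => (hYχ x hx).ne')
    exact Continuous.continuousOn (by fun_prop)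
  obtain ⟨z, hz, hmin⟩ := hYc.exists_isMinOn ⟨p, hpY⟩ hc
  have hr : 0 < r := lt_of_le_of_lt (norm_nonneg p) hp
  have hzr : ‖z‖ < r := by
    have h1 := hYχ z hz
    by_contra h2
    nlinarith [not_lt.1 h2]
  have hzp : h z + f p ^ 2 / (r ^ 2 - ‖z‖ ^ 2) ≤ h p + f p ^ 2 / (r ^ 2 - ‖p‖ ^ 2) := hmin hpY
  refine ⟨z, hzr, ((hYm z).1 hz).2.1, hzp, ?_⟩
  have h1 : ∀ᶠ x in 𝓝 z, ‖x‖ < r := continuous_norm.continuousAt.eventually_lt continuousAt_const hzr
  filter_upwards [mem_nhdsWithin_of_mem_nhds h1, self_mem_nhdsWithin] with x hx1 hx2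
  have hx3 : f x = f p := (show f x = f z from hx2).trans ((hYm z).1 hz).2.1
  by_cases hx4 : f p ^ 2 ≤ M * (r ^ 2 - ‖x‖ ^ 2)
  · exact hmin ((hYm x).2 ⟨hx1.le, hx3, hx4⟩)
  · have h2 : M ≤ f p ^ 2 / (r ^ 2 - ‖x‖ ^ 2) := (le_div_iff₀ (hχ x hx1)).2 (not_le.1 hx4).le
    show h z + f p ^ 2 / (r ^ 2 - ‖z‖ ^ 2) ≤ h x + f p ^ 2 / (r ^ 2 - ‖x‖ ^ 2)
    linarith [hh0 x]

omit [FiniteDimensional ℝ E] in
theorem hasFDerivAt_lift {u : E → ℝ} {a : E} (q : ℝ × (E × ℝ))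
    (hu : DifferentiableAt ℝ u (a + q.2.1)) :
    HasFDerivAt (fun q : ℝ × (E × ℝ) => u (a + q.2.1)) ((fderiv ℝ u (a + q.2.1)).comp
      ((ContinuousLinearMap.fst ℝ E ℝ).comp (ContinuousLinearMap.snd ℝ ℝ (E × ℝ)))) q :=
  hu.hasFDerivAt.comp q (((ContinuousLinearMap.fst ℝ E ℝ).comp
    (ContinuousLinearMap.snd ℝ ℝ (E × ℝ))).hasFDerivAt.const_add a)

omit [FiniteDimensional ℝ E] in
theorem analyticAt_lift {u : E → ℝ} {a : E} (hu : AnalyticAt ℝ u a) :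
    AnalyticAt ℝ (fun q : ℝ × (E × ℝ) => u (a + q.2.1)) 0 :=
  AnalyticAt.comp_of_eq hu (analyticAt_const.add (analyticAt_fst.comp analyticAt_snd)) (by simp)

/-- The Lagrange condition at a constrained minimum. -/
theorem lagrange {f h : E → ℝ} {r s : ℝ} {z : E} (hf : AnalyticAt ℝ f z) (hh : AnalyticAt ℝ h z)
    (hχ : r ^ 2 - ‖z‖ ^ 2 ≠ 0) (hd : fderiv ℝ f z ≠ 0)
    (hmin : IsLocalMinOn (fun x => h x + s ^ 2 / (r ^ 2 - ‖x‖ ^ 2)) {x | f x = f z} z)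
    {c : E} (hc : fderiv ℝ f z c = 0) :
    fderiv ℝ h z c - s ^ 2 / (r ^ 2 - ‖z‖ ^ 2) ^ 2 *
      fderiv ℝ (fun x : E => r ^ 2 - ‖x‖ ^ 2) z c = 0 := by
  have h1 := (analyticAt_chi r z).hasStrictFDerivAt
  have h2 := hh.hasStrictFDerivAt.add
    (((hasStrictDerivAt_inv hχ).comp_hasStrictFDerivAt z h1).const_mul (s ^ 2))
  have h3 : IsLocalExtrOn (h + fun x : E => s ^ 2 * ((fun y : ℝ => y⁻¹) ∘
      fun x : E => r ^ 2 - ‖x‖ ^ 2) x) {x | f x = f z} z := Or.inl hmin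
  obtain ⟨a, b, hab, h4⟩ := h3.exists_multipliers_of_hasStrictFDerivAt_1d hf.hasStrictFDerivAt h2
  have hb : b ≠ 0 := by
    rintro rfl
    rw [zero_smul, add_zero] at h4
    rcases smul_eq_zero.1 h4 with h5 | h5
    · exact hab (by rw [h5]; rfl)
    · exact hd h5
  have h5 := congrArg (fun L : E →L[ℝ] ℝ => L c) h4
  simp only [add_apply, smul_apply, hc, smul_eq_mul, mul_zero, zero_add, zero_apply] at h5
  have h6 := (mul_eq_zero.1 h5).resolve_left hb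
  rw [← h6, div_eq_mul_inv]
  ring

theorem loj_pow {f : E → ℝ} (hf : AnalyticAt ℝ f 0) (h0 : f 0 = 0) :
    ∃ N : ℕ, ∀ᶠ x in 𝓝 (0 : E), (f x ^ 2) ^ (N + 1) ≤ (‖fderiv ℝ f x‖ ^ 2) ^ (N + 2) := by
  by_contra hcon
  push Not at hcon
  obtain ⟨R, hR, hfR⟩ := exists_ball hf
  obtain ⟨r, hr, hfr⟩ : ∃ r > 0, ∀ x ∈ closedBall (0 : E) r, AnalyticAt ℝ f x :=
    ⟨R / 2, by positivity, fun x hx => hfR x (closedBall_subset_ball (by linarith) hx)⟩
  obtain ⟨h, hh⟩ : ∃ h : E → ℝ, h = fun x => ‖fderiv ℝ f x‖ ^ 2 := ⟨_, rfl⟩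
  have hh' : ∀ x, ‖fderiv ℝ f x‖ ^ 2 = h x := fun x => by rw [hh]
  have hhr : ∀ x ∈ closedBall (0 : E) r, AnalyticAt ℝ h x := fun x hx => by
    rw [hh]
    exact analyticAt_gradSq (hfr x hx)
  have hh0 : ∀ x, 0 ≤ h x := fun x => by
    rw [← hh']
    positivity
  simp only [hh'] at hcon
  have hp : ∀ k : ℕ, ∃ p : E, h p ^ (k + 2) < (f p ^ 2) ^ (k + 1) ∧ ‖p‖ < r / 2 ∧
      ‖p‖ < 1 / ((k : ℝ) + 1) := fun k =>
    ((hcon k).and_eventually (Eventually.and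
      (continuous_norm.continuousAt.eventually_lt continuousAt_const (by simpa using hr))
      (continuous_norm.continuousAt.eventually_lt continuousAt_const
        (by rw [norm_zero]; positivity)))).exists
  choose p hp1 hp2 hp3 using hp
  obtain ⟨s, hs⟩ : ∃ s : ℕ → ℝ, s = fun k => f (p k) := ⟨_, rfl⟩
  have hs' : ∀ k, f (p k) = s k := fun k => by rw [hs]
  have hs0 : ∀ k, s k ≠ 0 := fun k h1 => by
    have h2 := hp1 k
    rw [hs', h1] at h2
    have h3 := pow_nonneg (hh0 (p k)) (k + 2)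
    simp at h2
    linarith
  have hpt : Tendsto p atTop (𝓝 0) :=
    squeeze_zero_norm (fun k => (hp3 k).le) tendsto_one_div_add_atTop_nhds_zero_nat
  have hst : Tendsto s atTop (𝓝 0) := by
    have h1 := hf.continuousAt.tendsto.comp hpt
    rw [h0] at h1
    rw [hs]
    exact h1
  choose z hz1 hz2 hz3 hz4 using fun k => exists_min (f := f) (h := h) (r := r)
    (fun x hx => (hfr x hx).continuousAt.continuousWithinAt)
    (fun x hx => (hhr x hx).continuousAt.continuousWithinAt) hh0 (p := p k)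
    (by linarith [hp2 k]) (by rw [hs']; exact hs0 k)
  simp only [hs'] at hz2 hz3 hz4 hp1
  have hzb : ∀ k, z k ∈ closedBall (0 : E) r := fun k => mem_closedBall_zero_iff.2 (hz1 k).le
  have hχ : ∀ k, 0 < r ^ 2 - ‖z k‖ ^ 2 := fun k => by nlinarith [norm_nonneg (z k), hz1 k]
  obtain ⟨U, hU⟩ : ∃ U : Ultrafilter ℕ, (U : Filter ℕ) ≤ atTop := ⟨_, Ultrafilter.of_le _⟩
  obtain ⟨a, ha, hza⟩ : ∃ a ∈ closedBall (0 : E) r, Tendsto z U (𝓝 a) :=
    (isCompact_closedBall (0 : E) r).ultrafilter_le_nhds (U.map z)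
      (le_principal_iff.2 (mem_map.2 (Eventually.of_forall hzb)))
  have hsU : Tendsto s U (𝓝 0) := hst.mono_left hU
  have hfa : f a = 0 :=
    tendsto_nhds_unique ((hfr a ha).continuousAt.tendsto.comp hza)
      (hsU.congr fun k => (hz2 k).symm)
  obtain ⟨w, hw⟩ : ∃ w : ℕ → ℝ, w = fun k => s k ^ 2 / (r ^ 2 - ‖z k‖ ^ 2) := ⟨_, rfl⟩
  have hw' : ∀ k, s k ^ 2 / (r ^ 2 - ‖z k‖ ^ 2) = w k := fun k => by rw [hw]
  have hw0 : ∀ k, 0 ≤ w k := fun k => by
    rw [← hw']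
    exact div_nonneg (sq_nonneg _) (hχ k).le
  have hsmall : ∀ j : ℕ,
      Tendsto (fun k => s k * ((h (z k) + w k) / s k ^ 2) ^ j) atTop (𝓝 0) := by
    intro j
    have h1 : Tendsto (fun k => (1 + 4 / (3 * r ^ 2)) ^ j * √|s k|) atTop (𝓝 0) := by
      simpa using (hst.abs.sqrt).const_mul ((1 + 4 / (3 * r ^ 2)) ^ j)
    refine squeeze_zero_norm' ?_ h1
    have h2 : ∀ᶠ k in atTop, |s k| < 1 := hst.abs.eventually_lt tendsto_const_nhds (by simp)
    filter_upwards [h2, eventually_ge_atTop (4 * j)] with k k1 k2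
    have k3 : 0 < s k ^ 2 := by have := hs0 k; positivity
    refine small_aux (t := h (p k) / s k ^ 2) (n := k + 2) k1.le (by positivity)
      (div_nonneg (add_nonneg (hh0 _) (hw0 k)) k3.le) ?_ ?_ (by omega)
    · have k4 : 3 * r ^ 2 / 4 ≤ r ^ 2 - ‖p k‖ ^ 2 := by nlinarith [norm_nonneg (p k), hp2 k]
      have k5 : s k ^ 2 / (r ^ 2 - ‖p k‖ ^ 2) ≤ s k ^ 2 / (3 * r ^ 2 / 4) :=
        div_le_div_of_nonneg_left k3.le (by positivity) k4
      have k6 : s k ^ 2 / (3 * r ^ 2 / 4) = 4 / (3 * r ^ 2) * s k ^ 2 := by field_simp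
      rw [div_le_iff₀ k3, add_mul, div_mul_cancel₀ _ k3.ne', ← hw']
      linarith [hz3 k]
    · rw [div_pow, div_mul_eq_mul_div, div_lt_one (by positivity), pow_succ (s k ^ 2) (k + 1)]
      exact mul_lt_mul_of_pos_right (hp1 k) k3
  have hwt : Tendsto w atTop (𝓝 0) := by
    have h1 := (hsmall 1).mul hst
    rw [mul_zero] at h1
    refine squeeze_zero hw0 (fun k => ?_) h1
    have k3 := hs0 k
    have k4 : s k * ((h (z k) + w k) / s k ^ 2) ^ 1 * s k = h (z k) + w k := by field_simp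
    rw [k4]
    linarith [hh0 (z k)]
  have hbig : ∀ C : ℝ, ∀ᶠ k in U, C * s k ^ 2 ≤ h (z k) := fun C => by
    filter_upwards [hza.eventually (grad_big (hfr a ha) hfa C)] with k hk
    rwa [hh', hz2] at hk
  have hza' : ∀ k, a + (z k - a) = z k := fun k => add_sub_cancel a (z k)
  have hrel := elim_main (U := U) (s := s) (Eventually.of_forall hs0)
    (x := fun k => (z k - a, w k)) (Ψ := fun q : ℝ × (E × ℝ) => h (a + q.2.1) + q.2.2)
    (by
      have h1 := hsU.prodMk_nhds ((hza.sub_const a).prodMk_nhds (hwt.mono_left hU))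
      rwa [sub_self] at h1)
    ((analyticAt_lift (hhr a ha)).add (analyticAt_snd.comp analyticAt_snd)) (by
      intro c hc
      have g1 := hc (fun q => f (a + q.2.1) - q.1) ((analyticAt_lift (hfr a ha)).sub analyticAt_fst)
        (Eventually.of_forall fun k => by simp only [hza', hz2, sub_self])
      have g2 := hc (fun q => q.2.2 * (r ^ 2 - ‖a + q.2.1‖ ^ 2) - q.1 ^ 2)
        (((analyticAt_snd.comp analyticAt_snd).mul (analyticAt_lift (analyticAt_chi r a))).sub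
          (analyticAt_fst.pow 2))
        (Eventually.of_forall fun k => by
          simp only [hza']
          rw [← hw', div_mul_cancel₀ _ (hχ k).ne', sub_self])
      filter_upwards [g1, g2, hbig 1] with k k1 k2 k3
      obtain ⟨q, hq⟩ : ∃ q : ℝ × (E × ℝ), q = (s k, (z k - a, w k)) := ⟨_, rfl⟩
      have hq1 : a + q.2.1 = z k := by rw [hq, hza']
      have hq2 : q.2.2 = w k := by rw [hq]
      rw [← hq] at k1 k2 ⊢
      have e1 := hasFDerivAt_lift (u := f) q (hq1 ▸ (hfr _ (hzb k)).differentiableAt)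
      have e2 := hasFDerivAt_lift (u := h) q (hq1 ▸ (hhr _ (hzb k)).differentiableAt)
      have e3 := hasFDerivAt_lift (u := fun x : E => r ^ 2 - ‖x‖ ^ 2) (a := a) q
        (analyticAt_chi r _).differentiableAt
      have e4 : HasFDerivAt (fun q : ℝ × (E × ℝ) => q.2.2) ((ContinuousLinearMap.snd ℝ E ℝ).comp
        (ContinuousLinearMap.snd ℝ ℝ (E × ℝ))) q := ((ContinuousLinearMap.snd ℝ E ℝ).comp
        (ContinuousLinearMap.snd ℝ ℝ (E × ℝ))).hasFDerivAt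
      have e5 : HasFDerivAt (fun q : ℝ × (E × ℝ) => q.1) (ContinuousLinearMap.fst ℝ ℝ (E × ℝ)) q :=
        hasFDerivAt_fst
      rw [(e1.fun_sub e5).fderiv] at k1
      rw [((e4.fun_mul e3).fun_sub (e5.pow 2)).fderiv] at k2
      rw [(e2.fun_add e4).fderiv]
      simp only [hq1, hq2, sub_apply, add_apply, smul_apply, ContinuousLinearMap.comp_apply,
        ContinuousLinearMap.coe_fst', ContinuousLinearMap.coe_snd', smul_eq_mul, mul_zero,
        sub_zero] at k1 k2 ⊢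
      have k4 : fderiv ℝ f (z k) ≠ 0 := fun h1 => by
        rw [← hh', h1] at k3
        simp at k3
        exact hs0 k k3
      have k5 := lagrange (hfr _ (hzb k)) (hhr _ (hzb k)) (hχ k).ne' k4 (hz4 k) k1
      have k6 := (hχ k).ne'
      rw [← hw'] at k2
      refine (mul_eq_zero.1 ?_).resolve_left k6
      have k7 : s k ^ 2 / (r ^ 2 - ‖z k‖ ^ 2) =
          (r ^ 2 - ‖z k‖ ^ 2) * (s k ^ 2 / (r ^ 2 - ‖z k‖ ^ 2) ^ 2) := by field_simp
      rw [k7] at k2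
      linear_combination (r ^ 2 - ‖z k‖ ^ 2) * k5 + k2)
  simp only [hza'] at hrel
  obtain ⟨C, hC⟩ := newton hsU (Eventually.of_forall hs0) hrel fun j => (hsmall j).mono_left hU
  obtain ⟨k, k1, k2⟩ := (hC.and (hbig (C + 1))).exists
  have := hs0 k
  have k3 : 0 < s k ^ 2 := by positivity
  linarith [hw0 k]

end inner

/-- The gradient inequality for a real-analytic function on a finite-dimensional space. -/
theorem gradient_inequality {E : Type*} [NormedAddCommGroup E] [NormedSpace ℝ E]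
    [FiniteDimensional ℝ E] {f : E → ℝ} {x₀ : E} (hf : AnalyticAt ℝ f x₀) :
    ∃ θ : ℝ, 1 / 2 ≤ θ ∧ θ < 1 ∧ ∃ C : ℝ, 0 < C ∧
      ∀ᶠ x in 𝓝 x₀, |f x - f x₀| ^ θ ≤ C * ‖fderiv ℝ f x‖ := by
  let e : EuclideanSpace ℝ (Fin (Module.finrank ℝ E)) ≃L[ℝ] E :=
    ContinuousLinearEquiv.ofFinrankEq (by simp)
  have he : ∀ y, AnalyticAt ℝ (fun y => x₀ + e y) y := fun y =>
    analyticAt_const.add (e.toContinuousLinearMap.analyticAt y)
  have hg : AnalyticAt ℝ (fun y => f (x₀ + e y) - f x₀) 0 :=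
    (AnalyticAt.comp_of_eq hf (he 0) (by simp)).sub analyticAt_const
  obtain ⟨N, hN⟩ := loj_pow hg (by simp)
  have hN1 : (0 : ℝ) < (N : ℝ) + 2 := by positivity
  refine ⟨((N : ℝ) + 1) / ((N : ℝ) + 2), ?_, ?_, ‖e.toContinuousLinearMap‖ + 1, by positivity, ?_⟩
  · rw [div_le_div_iff₀ (by norm_num) hN1]
    linarith [(Nat.cast_nonneg N : (0 : ℝ) ≤ N)]
  · rw [div_lt_one hN1]
    linarith
  have ht : Tendsto (fun x => e.symm (x - x₀)) (𝓝 x₀) (𝓝 0) := by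
    have h : Continuous fun x => e.symm (x - x₀) := by fun_prop
    simpa using h.tendsto x₀
  filter_upwards [ht.eventually hN, hf.eventually_analyticAt] with x hx1 hx2
  have h1 : x₀ + e (e.symm (x - x₀)) = x := by simp
  have h2 : HasFDerivAt (fun y => f (x₀ + e y) - f x₀)
      ((fderiv ℝ f x).comp e.toContinuousLinearMap) (e.symm (x - x₀)) := by
    refine HasFDerivAt.sub_const _ (HasFDerivAt.comp (g := f) (f := fun y => x₀ + e y) _ ?_
      (e.toContinuousLinearMap.hasFDerivAt.const_add x₀))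
    rw [h1]
    exact hx2.differentiableAt.hasFDerivAt
  rw [h2.fderiv, h1] at hx1
  obtain ⟨g, hg⟩ : ∃ g, g = ‖(fderiv ℝ f x).comp e.toContinuousLinearMap‖ := ⟨_, rfl⟩
  have hg0 : 0 ≤ g := hg ▸ norm_nonneg _
  have h3 : g ≤ (‖e.toContinuousLinearMap‖ + 1) * ‖fderiv ℝ f x‖ := by
    rw [hg]
    refine (ContinuousLinearMap.opNorm_comp_le _ _).trans ?_
    nlinarith [norm_nonneg (fderiv ℝ f x)]
  refine le_trans ?_ h3
  rw [← hg, ← sq_abs, ← pow_mul, ← pow_mul, mul_comm 2, mul_comm 2, pow_mul, pow_mul] at hx1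
  have h4 : |f x - f x₀| ^ (N + 1) ≤ g ^ (N + 2) :=
    (sq_le_sq₀ (by positivity) (by positivity)).1 hx1
  have h5 : |f x - f x₀| ^ (((N : ℝ) + 1) / ((N : ℝ) + 2)) =
      (|f x - f x₀| ^ (N + 1)) ^ (((N + 2 : ℕ) : ℝ)⁻¹) := by
    rw [← Real.rpow_natCast, ← Real.rpow_mul (abs_nonneg _)]
    congr 1
    push_cast
    rw [div_eq_mul_inv]
  rw [h5]
  calc (|f x - f x₀| ^ (N + 1)) ^ (((N + 2 : ℕ) : ℝ)⁻¹) ≤ (g ^ (N + 2)) ^ (((N + 2 : ℕ) : ℝ)⁻¹) :=
        Real.rpow_le_rpow (by positivity) h4 (by positivity)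
    _ = g := Real.pow_rpow_inv_natCast hg0 (by omega)

end Vale.Agent.P218LJ
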