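import Mathlib

/-!
# P218 (helper40): derivations along a ring homomorphism into a field
-/

open Polynomial

namespace Vale.Agent.P218LJ

variable {R F : Type*} [CommRing R] [Field F]

/-- A derivation along the ring homomorphism `φ`. -/
structure IsDer (φ : R →+* F) (D : R → F) : Prop where
  add : ∀ a b, D (a + b) = D a + D b
  mul : ∀ a b, D (a * b) = φ a * D b + φ b * D a

theorem IsDer.zero {φ : R →+* F} {D : R → F} (h : IsDer φ D) : D 0 = 0 := by
  have h1 := h.add 0 0
  rw [add_zero] at h1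
  exact left_eq_add.1 h1

theorem IsDer.sub {φ : R →+* F} {D : R → F} (h : IsDer φ D) (a b : R) :
    D (a - b) = D a - D b := by
  have h1 := h.add (a - b) b
  rw [sub_add_cancel] at h1
  rw [h1]
  ring

theorem IsDer.one {φ : R →+* F} {D : R → F} (h : IsDer φ D) : D 1 = 0 := by
  have h1 := h.mul 1 1
  rw [mul_one, map_one, one_mul] at h1
  exact left_eq_add.1 h1

theorem IsDer.pow {φ : R →+* F} {D : R → F} (h : IsDer φ D) (a : R) (n : ℕ) :
    D (a ^ (n + 1)) = ((n : F) + 1) * φ a ^ n * D a := by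
  induction n with
  | zero => simp
  | succ n ih =>
    rw [pow_succ, h.mul, ih, map_pow]
    push_cast
    ring

theorem IsDer.formula {φ : R →+* F} {y : F} {D : R[X] → F}
    (h : IsDer (eval₂RingHom φ y) D) (G : R[X]) :
    D G = (G.sum fun j a => D (C a) * y ^ j) + eval₂ φ y (derivative G) * D X := by
  induction G using Polynomial.induction_on' with
  | add p q hp hq =>
    rw [h.add, hp, hq, Polynomial.sum_add_index, derivative_add, eval₂_add]
    · ring
    · intro i
      rw [C_0, h.zero, zero_mul]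
    · intro i a b
      rw [C_add, h.add, add_mul]
  | monomial n a =>
    rw [Polynomial.sum_monomial_index _ _ (by rw [C_0, h.zero, zero_mul]), derivative_monomial,
      eval₂_monomial, ← C_mul_X_pow_eq_monomial, h.mul]
    rcases n with _ | n
    · simp [h.one]
    · rw [h.pow]
      simp only [coe_eval₂RingHom, eval₂_C, eval₂_X, eval₂_pow, map_mul, Nat.add_sub_cancel,
        map_natCast]
      push_cast
      ring

/-- Extension of a derivation to an algebraic element. -/
theorem ext_der [CharZero F] {φ : R →+* F} {δ : R → F} (hδ : ∀ a, φ a = 0 → δ a = 0) {y : F}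
    (hy : ∃ M : R[X], M.map φ ≠ 0 ∧ eval₂ φ y M = 0) :
    ∃ c : F, ∀ D : R[X] → F, IsDer (eval₂RingHom φ y) D → (∀ a, D (C a) = δ a) → D X = c →
      ∀ G, eval₂ φ y G = 0 → D G = 0 := by
  classical
  have hex : ∃ m : ℕ, ∃ M : R[X], M.map φ ≠ 0 ∧ eval₂ φ y M = 0 ∧ (M.map φ).natDegree = m := by
    obtain ⟨M, h1, h2⟩ := hy
    exact ⟨_, M, h1, h2, rfl⟩
  obtain ⟨M, hM0, hMy, hMm⟩ := Nat.find_spec hex
  have hmin : ∀ G : R[X], G.map φ ≠ 0 → eval₂ φ y G = 0 →
      (M.map φ).natDegree ≤ (G.map φ).natDegree := by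
    intro G h1 h2
    rw [hMm]
    exact Nat.find_min' hex ⟨G, h1, h2, rfl⟩
  have hM' : eval₂ φ y (derivative M) ≠ 0 := by
    intro h0
    have hd : (M.map φ).natDegree ≠ 0 := by
      intro hd
      have h1 := eq_C_of_natDegree_eq_zero hd
      rw [eval₂_eq_eval_map, h1, eval_C] at hMy
      rw [h1, hMy, C_0] at hM0
      exact hM0 rfl
    have h1 : (derivative M).map φ ≠ 0 := by
      rw [← derivative_map]
      intro h2
      exact hd (derivative_eq_zero.1 h2)
    have h2 := hmin _ h1 h0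
    rw [← derivative_map] at h2
    exact absurd (natDegree_derivative_lt hd) (not_lt.2 h2)
  refine ⟨-(M.sum fun j a => δ a * y ^ j) / eval₂ φ y (derivative M), ?_⟩
  intro D hD hDC hDX
  have hDM : D M = 0 := by
    rw [hD.formula, hDX]
    simp only [hDC]
    field_simp
    ring
  have hker : ∀ G : R[X], G.map φ = 0 → D G = 0 := by
    intro G hG
    rw [hD.formula, eval₂_eq_eval_map, ← derivative_map, hG, derivative_zero, eval_zero, zero_mul,
      add_zero]
    refine Finset.sum_eq_zero fun j _ => ?_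
    have h1 : φ (G.coeff j) = 0 := by rw [← coeff_map, hG, coeff_zero]
    simp only [hDC, hδ _ h1, zero_mul]
  have key : ∀ d : ℕ, ∀ G : R[X], (G.map φ).natDegree = d → eval₂ φ y G = 0 → D G = 0 := by
    intro d
    induction d using Nat.strong_induction_on with
    | _ d ih =>
      intro G hGd hGy
      by_cases hG0 : G.map φ = 0
      · exact hker G hG0
      have hmd := hmin G hG0 hGy
      obtain ⟨a, ha⟩ : ∃ a, a = M.coeff (M.map φ).natDegree := ⟨_, rfl⟩
      obtain ⟨b, hb⟩ : ∃ b, b = G.coeff (G.map φ).natDegree := ⟨_, rfl⟩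
      have ha' : φ a = (M.map φ).leadingCoeff := by rw [ha, ← coeff_map]; rfl
      have hb' : φ b = (G.map φ).leadingCoeff := by rw [hb, ← coeff_map]; rfl
      have ha0 : φ a ≠ 0 := by rw [ha']; exact leadingCoeff_ne_zero.2 hM0
      have hb0 : φ b ≠ 0 := by rw [hb']; exact leadingCoeff_ne_zero.2 hG0
      obtain ⟨e, he⟩ := Nat.exists_eq_add_of_le hmd
      obtain ⟨H, hH⟩ : ∃ H, H = C a * G - C b * X ^ e * M := ⟨_, rfl⟩
      have hHy : eval₂ φ y H = 0 := by
        rw [hH, eval₂_sub, eval₂_mul, eval₂_mul, hGy, hMy]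
        ring
      have hDH : D H = 0 := by
        by_cases hH0 : H.map φ = 0
        · exact hker H hH0
        refine ih _ ?_ H rfl hHy
        rw [← hGd]
        refine natDegree_lt_natDegree hH0 ?_
        have h1 : H.map φ = C (φ a) * G.map φ - C (φ b) * X ^ e * M.map φ := by
          rw [hH]
          simp
        have h2 : (C (φ a) * G.map φ).degree = (G.map φ).degree := degree_C_mul ha0
        rw [h1, ← h2]
        refine degree_sub_lt_left ?_ (mul_ne_zero (C_ne_zero.2 ha0) hG0) ?_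
        · rw [h2, degree_mul, degree_C_mul_X_pow _ hb0, degree_eq_natDegree hG0,
            degree_eq_natDegree hM0, he]
          push_cast
          exact add_comm _ _
        · rw [leadingCoeff_mul, leadingCoeff_mul, leadingCoeff_C, leadingCoeff_C_mul_X_pow, ← ha',
            ← hb']
          ring
      rw [hH, hD.sub, hD.mul, hD.mul _ M, hDM] at hDH
      simp only [coe_eval₂RingHom, eval₂_C, hGy, hMy, zero_mul, mul_zero, add_zero,
        sub_zero] at hDH
      exact (mul_eq_zero.1 hDH).resolve_left ha0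
  intro G hG
  exact key _ G rfl hG

/-- Transitivity of algebraicity for subrings of a field. -/
theorem alg_trans {B' B : Subring F} (hle : B' ≤ B) (hB : ∀ b ∈ B, IsAlgebraic B' b) {ψ : F}
    (hψ : IsAlgebraic B ψ) : IsAlgebraic B' ψ := by
  let _ : Algebra B' B := (Subring.inclusion hle).toAlgebra
  have : IsScalarTower B' B F := IsScalarTower.of_algebraMap_eq fun _ => rfl
  have : Algebra.IsAlgebraic B' B := by
    refine ⟨fun b => ?_⟩
    have h1 := hB b b.2
    exact (isAlgebraic_algebraMap_iff (R := B') (S := B) (A := F) Subtype.val_injective).1 h1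
  exact hψ.restrictScalars B'

theorem alg_family {φ : R →+* F} {ψ : F} (h : IsAlgebraic φ.range ψ) :
    ∃ (N : ℕ) (a : ℕ → R), (∃ j < N, φ (a j) ≠ 0) ∧
      ∑ j ∈ Finset.range N, φ (a j) * ψ ^ j = 0 := by
  obtain ⟨p, hp0, hp⟩ := h
  choose a ha using fun j => (p.coeff j).2
  refine ⟨p.natDegree + 1, a, ⟨p.natDegree, Nat.lt_succ_self _, ?_⟩, ?_⟩
  · rw [ha]
    intro h0
    exact leadingCoeff_ne_zero.2 hp0 (Subtype.ext h0)
  · rw [aeval_eq_sum_range] at hp
    rw [← hp]
    refine Finset.sum_congr rfl fun j _ => ?_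
    rw [ha]
    rfl

/-- A minimal relation has vanishing Wronskians. -/
theorem wronsk {φ : R →+* F} {ψ : F} (h : IsAlgebraic φ.range ψ) {ι : Type*} (d : ι → R → R)
    (hd : ∀ i (N : ℕ) (a : ℕ → R), ∑ j ∈ Finset.range N, φ (a j) * ψ ^ j = 0 →
      ∑ j ∈ Finset.range N, φ (d i (a j)) * ψ ^ j = 0) :
    ∃ (m : ℕ) (a : ℕ → R), φ (a m) ≠ 0 ∧ ∑ j ∈ Finset.range (m + 1), φ (a j) * ψ ^ j = 0 ∧
      ∀ i, ∀ j < m + 1, φ (a m * d i (a j) - a j * d i (a m)) = 0 := by
  classical
  have hex := alg_family h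
  obtain ⟨a, ⟨j0, hj0, haj0⟩, hsum⟩ := Nat.find_spec hex
  obtain ⟨m, hm⟩ : ∃ m, Nat.find hex = m + 1 := ⟨Nat.find hex - 1, by omega⟩
  rw [hm] at hj0 hsum
  have hmin : ∀ b : ℕ → R, ∑ j ∈ Finset.range m, φ (b j) * ψ ^ j = 0 →
      ∀ j < m, φ (b j) = 0 := by
    intro b hb j hj
    by_contra hne
    exact Nat.find_min hex (m := m) (by omega) ⟨b, ⟨j, hj, hne⟩, hb⟩
  have ham : φ (a m) ≠ 0 := by
    intro h0
    rw [Finset.sum_range_succ, h0, zero_mul, add_zero] at hsum
    rcases Nat.lt_succ_iff_lt_or_eq.1 hj0 with h1 | h1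
    · exact haj0 (hmin a hsum j0 h1)
    · exact haj0 (h1 ▸ h0)
  refine ⟨m, a, ham, hsum, fun i j hj => ?_⟩
  have h1 := hd i _ a hsum
  have h2 : ∑ j ∈ Finset.range (m + 1), φ (a m * d i (a j) - a j * d i (a m)) * ψ ^ j = 0 := by
    have h3 : ∑ j ∈ Finset.range (m + 1), φ (a m * d i (a j) - a j * d i (a m)) * ψ ^ j =
        φ (a m) * ∑ j ∈ Finset.range (m + 1), φ (d i (a j)) * ψ ^ j -
          φ (d i (a m)) * ∑ j ∈ Finset.range (m + 1), φ (a j) * ψ ^ j := by
      rw [Finset.mul_sum, Finset.mul_sum, ← Finset.sum_sub_distrib]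
      refine Finset.sum_congr rfl fun j _ => ?_
      rw [map_sub, map_mul, map_mul]
      ring
    rw [h3, h1, hsum]
    ring
  rw [Finset.sum_range_succ, sub_self, map_zero, zero_mul, add_zero] at h2
  rcases Nat.lt_succ_iff_lt_or_eq.1 hj with h3 | h3
  · exact hmin (fun j => a m * d i (a j) - a j * d i (a m)) h2 j h3
  · rw [h3, sub_self, map_zero]

end Vale.Agent.P218LJ
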