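import Vale.Agent.P218LJ.WDiv

/-!
# P218 (helper40): elementary lemmas on real-analytic germs
-/

open Filter Topology Metric

namespace Vale.Agent.P218LJ

variable {E : Type} [NormedAddCommGroup E] [NormedSpace ℝ E]

theorem exists_ball {F : E → ℝ} (hF : AnalyticAt ℝ F 0) :
    ∃ ρ > 0, AnalyticOnNhd ℝ F (ball 0 ρ) := by
  obtain ⟨ρ, hρ, h⟩ := Metric.eventually_nhds_iff_ball.1 hF.eventually_analyticAt
  exact ⟨ρ, hρ, fun x hx => h x hx⟩

/-- A nonzero germ is nonzero along some line. -/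
theorem exists_line {F : E → ℝ} (hF : AnalyticAt ℝ F 0) (h0 : ¬ ∀ᶠ p in 𝓝 (0 : E), F p = 0) :
    ∃ v : E, ¬ ∀ᶠ t in 𝓝 (0 : ℝ), F (t • v) = 0 := by
  by_contra hcon
  push Not at hcon
  obtain ⟨ρ, hρ, h⟩ := exists_ball hF
  refine h0 ?_
  filter_upwards [ball_mem_nhds (0 : E) hρ] with v hv
  have h1 : AnalyticOnNhd ℝ (fun t : ℝ => F (t • v)) (Set.Icc 0 1) := by
    intro t ht
    have h2 : t • v ∈ ball (0 : E) ρ := by
      rw [mem_ball_zero_iff] at hv ⊢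
      rw [norm_smul, Real.norm_eq_abs, abs_of_nonneg ht.1]
      nlinarith [norm_nonneg v, ht.1, ht.2]
    exact AnalyticAt.comp (f := fun t : ℝ => t • v) (h _ h2) (analyticAt_id.smul analyticAt_const)
  have h3 := h1.eqOn_zero_of_preconnected_of_eventuallyEq_zero isPreconnected_Icc
    (z₀ := 0) ⟨le_rfl, zero_le_one⟩ (hcon v) (x := 1) ⟨zero_le_one, le_rfl⟩
  simpa using h3

theorem line_tendsto (v : E) : Tendsto (fun t : ℝ => t • v) (𝓝 0) (𝓝 0) := by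
  have h : Continuous fun t : ℝ => t • v := by fun_prop
  simpa using h.tendsto 0

theorem line_analytic {F : E → ℝ} (hF : AnalyticAt ℝ F 0) (v : E) :
    AnalyticAt ℝ (fun t : ℝ => F (t • v)) 0 :=
  AnalyticAt.comp_of_eq (f := fun t : ℝ => t • v) hF (analyticAt_id.smul analyticAt_const)
    (by simp)

theorem div_fst {F : ℝ × E → ℝ} (hF : AnalyticAt ℝ F 0) (h0 : ∀ᶠ x in 𝓝 (0 : E), F (0, x) = 0) :
    ∃ G : ℝ × E → ℝ, AnalyticAt ℝ G 0 ∧ ∀ᶠ p in 𝓝 (0 : ℝ × E), F p = p.1 * G p := by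
  obtain ⟨q, r, hq, hr, h⟩ := weierstrass_division (F := fun p : ℝ × E => p.1) (p0 := 0) (b := 1)
    (u := fun _ => 1) analyticAt_fst analyticAt_const one_ne_zero
    (Eventually.of_forall fun x => by simp) (g := F) hF
  refine ⟨q, hq, ?_⟩
  have h1 : Tendsto (fun x : E => ((0 : ℝ), x)) (𝓝 0) (𝓝 (0, 0)) :=
    (continuous_const.prodMk continuous_id).tendsto 0
  have h2 : ∀ᶠ x in 𝓝 (0 : E), r 0 x = 0 := by
    filter_upwards [h1.eventually h, h0] with x hx hx0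
    rw [hx0] at hx
    simpa using hx.symm
  have h3 : Tendsto (Prod.snd : ℝ × E → E) (𝓝 (0, 0)) (𝓝 0) := continuous_snd.tendsto _
  have h4 : ∀ᶠ p in 𝓝 ((0, 0) : ℝ × E), F p = p.1 * q p := by
    filter_upwards [h, h3.eventually h2] with p hp hp2
    rw [hp]
    simp [hp2, mul_comm]
  exact h4

/-- Division by the largest possible power of the first coordinate. -/
theorem div_pow_fst {F : ℝ × E → ℝ} (hF : AnalyticAt ℝ F 0)
    (h0 : ¬ ∀ᶠ p in 𝓝 (0 : ℝ × E), F p = 0) :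
    ∃ (e : ℕ) (G : ℝ × E → ℝ), AnalyticAt ℝ G 0 ∧ (∀ᶠ p in 𝓝 (0 : ℝ × E), F p = p.1 ^ e * G p) ∧
      ¬ ∀ᶠ x in 𝓝 (0 : E), G (0, x) = 0 := by
  by_contra hcon
  push Not at hcon
  have h1 : ∀ e : ℕ, ∃ G : ℝ × E → ℝ, AnalyticAt ℝ G 0 ∧
      ∀ᶠ p in 𝓝 (0 : ℝ × E), F p = p.1 ^ e * G p := by
    intro e
    induction e with
    | zero => exact ⟨F, hF, Eventually.of_forall fun p => by simp⟩
    | succ e ih =>
      obtain ⟨G, hG, hFG⟩ := ih
      obtain ⟨H, hH, hGH⟩ := div_fst hG (hcon e G hG hFG)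
      refine ⟨H, hH, ?_⟩
      filter_upwards [hFG, hGH] with p h1 h2
      rw [h1, h2]
      ring
  obtain ⟨v, hv⟩ := exists_line hF h0
  refine hv (analyticOrderAt_eq_top.1 (ENat.eq_top_iff_forall_ge.2 fun e => ?_))
  obtain ⟨G, hG, hFG⟩ := h1 e
  refine (natCast_le_analyticOrderAt (line_analytic hF v)).2
    ⟨fun t => v.1 ^ e * G (t • v), analyticAt_const.mul (line_analytic hG v), ?_⟩
  filter_upwards [(line_tendsto v).eventually hFG] with t ht
  rw [ht]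
  simp only [Prod.smul_fst, smul_eq_mul, sub_zero, mul_pow]
  ring

/-- Two analytic functions with vanishing Wronskians are proportional. -/
theorem two_point {α β : E → ℝ} {ρ : ℝ} (hα : AnalyticOnNhd ℝ α (ball 0 ρ))
    (hβ : AnalyticOnNhd ℝ β (ball 0 ρ))
    (hW : ∀ x ∈ ball (0 : E) ρ, ∀ v, β x * fderiv ℝ α x v - α x * fderiv ℝ β x v = 0)
    {x : E} (hx : x ∈ ball (0 : E) ρ) (hβx : β x ≠ 0) {y : E} (hy : y ∈ ball (0 : E) ρ) :
    α x * β y = β x * α y := by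
  have h1 : ∀ᶠ w in 𝓝 x, w ∈ ball (0 : E) ρ ∧ β w ≠ 0 :=
    Eventually.and (isOpen_ball.mem_nhds hx) ((hβ x hx).continuousAt.eventually_ne hβx)
  obtain ⟨ε, hε, h2⟩ := Metric.eventually_nhds_iff_ball.1 h1
  have hd : ∀ w ∈ ball x ε, HasFDerivAt (fun w => α w / β w) (0 : E →L[ℝ] ℝ) w := by
    intro w hw
    obtain ⟨h3, h4⟩ := h2 w hw
    have h5 := (hα w h3).differentiableAt.hasFDerivAt
    have h6 := (hβ w h3).differentiableAt.hasFDerivAt
    have h7 := h5.mul ((hasFDerivAt_inv h4).comp w h6)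
    have h9 : (fun w => α w / β w) = α * (fun x => x⁻¹) ∘ β := by
      funext u
      simp [div_eq_mul_inv]
    rw [h9]
    refine h7.congr_fderiv ?_
    ext v
    have h8 := hW w h3 v
    simp only [zero_apply, add_apply, smul_apply, ContinuousLinearMap.comp_apply,
      ContinuousLinearMap.toSpanSingleton_apply, smul_eq_mul, Function.comp_apply]
    field_simp
    linarith
  have h3 : ∀ w ∈ ball x ε, α w / β w = α x / β x := fun w hw =>
    isOpen_ball.is_const_of_fderiv_eq_zero (𝕜 := ℝ) (f := fun w => α w / β w)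
      (convex_ball x ε).isPreconnected
      (fun u hu => (hd u hu).differentiableAt.differentiableWithinAt)
      (fun u hu => (hd u hu).fderiv) hw (mem_ball_self hε)
  have h4 : AnalyticOnNhd ℝ (fun w => α x * β w - β x * α w) (ball 0 ρ) := fun w hw =>
    (analyticAt_const.mul (hβ w hw)).sub (analyticAt_const.mul (hα w hw))
  have h5 : (fun w => α x * β w - β x * α w) =ᶠ[𝓝 x] 0 := by
    filter_upwards [ball_mem_nhds x hε] with w hw
    have h6 := h3 w hw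
    have h7 := (h2 w hw).2
    rw [div_eq_div_iff h7 hβx] at h6
    simp only [Pi.zero_apply]
    linarith
  have h6 := h4.eqOn_zero_of_preconnected_of_eventuallyEq_zero (convex_ball 0 ρ).isPreconnected
    hx h5 hy
  simp only [Pi.zero_apply] at h6
  linarith

/-- Weierstrass division in a direction `v` of the second factor. -/
theorem div_dir {E' : Type} [NormedAddCommGroup E'] [NormedSpace ℝ E'] (π : E →L[ℝ] E')
    (ι : E' →L[ℝ] E) (φ : E →L[ℝ] ℝ) (v : E) (hsum : ∀ x, ι (π x) + φ x • v = x)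
    {F : ℝ × E → ℝ} (hF : AnalyticAt ℝ F 0) (h0 : ¬ ∀ᶠ t in 𝓝 (0 : ℝ), F (0, t • v) = 0) :
    ∃ d : ℕ, ∀ g : ℝ × E → ℝ, AnalyticAt ℝ g 0 → ∃ (q : ℝ × E → ℝ) (r : Fin d → ℝ × E' → ℝ),
      AnalyticAt ℝ q 0 ∧ (∀ i, AnalyticAt ℝ (r i) 0) ∧
      ∀ᶠ p in 𝓝 (0 : ℝ × E), g p = q p * F p + ∑ i, r i (p.1, π p.2) * φ p.2 ^ (i : ℕ) := by
  let Λ : ℝ × (ℝ × E') → ℝ × E := fun z => (z.2.1, ι z.2.2 + z.1 • v)
  let Γ : ℝ × E → ℝ × (ℝ × E') := fun p => (φ p.2, (p.1, π p.2))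
  have hΛ : AnalyticAt ℝ Λ (0, 0) := by
    refine (analyticAt_fst.comp analyticAt_snd).prod (AnalyticAt.add ?_ ?_)
    · exact (ι.analyticAt _).comp (analyticAt_snd.comp analyticAt_snd)
    · exact analyticAt_fst.smul analyticAt_const
  have hΛ0 : Λ (0, 0) = 0 := by simp [Λ]
  have hΓ : AnalyticAt ℝ Γ 0 := by
    refine ((φ.analyticAt _).comp analyticAt_snd).prod (analyticAt_fst.prod ?_)
    exact (π.analyticAt _).comp analyticAt_snd
  have hΓ0 : Γ 0 = (0, 0) := by simp [Γ]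
  have hΛΓ : ∀ p, Λ (Γ p) = p := fun p => by simp [Λ, Γ, hsum]
  have hl : AnalyticAt ℝ (fun t : ℝ => F (0, t • v)) 0 :=
    AnalyticAt.comp_of_eq (f := fun t : ℝ => ((0 : ℝ), t • v)) hF
      (analyticAt_const.prod (analyticAt_id.smul analyticAt_const)) (by simp)
  obtain ⟨d, u, hu, hu0, hFu⟩ := hl.exists_eventuallyEq_pow_smul_nonzero_iff.2 h0
  refine ⟨d, fun g hg => ?_⟩
  obtain ⟨q, r, hq, hr, h⟩ := weierstrass_division (F := fun z => F (Λ z)) (p0 := 0) (b := d)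
    (u := u) (AnalyticAt.comp_of_eq hF hΛ hΛ0) hu hu0
    (hFu.mono fun t ht => by simpa [Λ] using ht) (g := fun z => g (Λ z))
    (AnalyticAt.comp_of_eq hg hΛ hΛ0)
  refine ⟨fun p => q (Γ p), r, AnalyticAt.comp_of_eq hq hΓ hΓ0, hr, ?_⟩
  have ht : Tendsto Γ (𝓝 0) (𝓝 (0, 0)) := by
    rw [← hΓ0]
    exact hΓ.continuousAt
  filter_upwards [ht.eventually h] with p hp
  rw [hΛΓ] at hp
  exact hp

/-- Splitting off a direction. -/
theorem exists_split [FiniteDimensional ℝ E] {v : E} (hv : v ≠ 0) :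
    ∃ (E' : Submodule ℝ E) (π : E →L[ℝ] E') (φ : E →L[ℝ] ℝ),
      Module.finrank ℝ E' + 1 = Module.finrank ℝ E ∧ (∀ x, (π x : E) + φ x • v = x) ∧
      (∀ x' : E', π x' = x') ∧ π v = 0 ∧ (∀ x' : E', φ x' = 0) ∧ φ v = 1 := by
  obtain ⟨φ, hφ⟩ : ∃ φ : E →L[ℝ] ℝ, φ v = 1 := SeparatingDual.exists_eq_one hv
  let P : E →L[ℝ] E := ContinuousLinearMap.id ℝ E - φ.smulRight v
  have hP : ∀ x, P x = x - φ x • v := fun x => rfl
  have hmem : ∀ x, P x ∈ LinearMap.ker (φ : E →ₗ[ℝ] ℝ) := by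
    intro x
    rw [LinearMap.mem_ker, hP]
    simp [hφ]
  have hk : ∀ x' : LinearMap.ker (φ : E →ₗ[ℝ] ℝ), φ x' = 0 := fun x' => x'.2
  refine ⟨LinearMap.ker (φ : E →ₗ[ℝ] ℝ), P.codRestrict _ hmem, φ, ?_, ?_, ?_, ?_, hk, hφ⟩
  · have h1 := LinearMap.finrank_range_add_finrank_ker (φ : E →ₗ[ℝ] ℝ)
    have h2 : LinearMap.range (φ : E →ₗ[ℝ] ℝ) = ⊤ := by
      rw [LinearMap.range_eq_top]
      intro t
      exact ⟨t • v, by simp [hφ]⟩
    rw [h2, finrank_top, Module.finrank_self] at h1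
    omega
  · intro x
    show P x + φ x • v = x
    rw [hP, sub_add_cancel]
  · intro x'
    refine Subtype.ext ?_
    show P x' = x'
    rw [hP, hk, zero_smul, sub_zero]
  · refine Subtype.ext ?_
    show P v = 0
    rw [hP, hφ, one_smul, sub_self]

end Vale.Agent.P218LJ
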