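import Vale.Agent.P218LJ.Ana
import Vale.Agent.P218LJ.Alg

/-!
# P218 (helper40): evaluation of analytic germs along an ultrafilter
-/

open Filter Topology Metric Polynomial

namespace Vale.Agent.P218LJ

/-- functions analytic at the origin -/
def An (X : Type) [NormedAddCommGroup X] [NormedSpace ℝ X] : Subring (X → ℝ) where
  carrier := {g | AnalyticAt ℝ g 0}
  mul_mem' := fun ha hb => AnalyticAt.mul ha hb
  one_mem' := analyticAt_const
  add_mem' := fun ha hb => AnalyticAt.add ha hb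
  zero_mem' := analyticAt_const
  neg_mem' := fun ha => AnalyticAt.neg ha

variable {X X' : Type} [NormedAddCommGroup X] [NormedSpace ℝ X] [NormedAddCommGroup X']
  [NormedSpace ℝ X']

theorem An.ana (g : An X) : AnalyticAt ℝ g.1 0 := g.2

/-- the ultrapower -/
abbrev UF (U : Ultrafilter ℕ) : Type := Germ (U : Filter ℕ) ℝ

/-- sequences as elements of the ultrapower -/
noncomputable def gm (U : Ultrafilter ℕ) : (ℕ → ℝ) →+* UF U := Germ.coeRingHom (U : Filter ℕ)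

theorem gm_eq {U : Ultrafilter ℕ} {u w : ℕ → ℝ} : gm U u = gm U w ↔ ∀ᶠ k in U, u k = w k :=
  Germ.coe_eq

theorem gm_eq_zero {U : Ultrafilter ℕ} {u : ℕ → ℝ} : gm U u = 0 ↔ ∀ᶠ k in U, u k = 0 := by
  rw [← map_zero (gm U), gm_eq]
  rfl

theorem gm_surj {U : Ultrafilter ℕ} (c : UF U) : ∃ u, gm U u = c := by
  induction c using Germ.inductionOn with
  | _ u => exact ⟨u, rfl⟩

instance (U : Ultrafilter ℕ) : CharZero (UF U) := by
  refine ⟨fun a b hab => ?_⟩
  rw [← map_natCast (gm U), ← map_natCast (gm U), gm_eq] at hab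
  obtain ⟨k, hk⟩ := hab.exists
  simpa using hk

/-- evaluation along a sequence -/
noncomputable def ev (U : Ultrafilter ℕ) (z : ℕ → X) : An X →+* UF U :=
  (gm U).comp
    { toFun := fun g k => g.1 (z k)
      map_one' := rfl
      map_mul' := fun _ _ => rfl
      map_zero' := rfl
      map_add' := fun _ _ => rfl }

theorem ev_apply (U : Ultrafilter ℕ) (z : ℕ → X) (g : An X) :
    ev U z g = gm U fun k => g.1 (z k) := rfl

/-- directional derivatives along a sequence -/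
noncomputable def dv (U : Ultrafilter ℕ) (z c : ℕ → X) (g : An X) : UF U :=
  gm U fun k => fderiv ℝ g.1 (z k) (c k)

variable {U : Ultrafilter ℕ} {z : ℕ → X}

theorem ev_diff (hz : Tendsto z U (𝓝 0)) (g : An X) :
    ∀ᶠ k in U, DifferentiableAt ℝ g.1 (z k) :=
  hz.eventually ((An.ana g).eventually_analyticAt.mono fun _ h => h.differentiableAt)

theorem isDer_dv (hz : Tendsto z U (𝓝 0)) (c : ℕ → X) : IsDer (ev U z) (dv U z c) := by
  refine ⟨fun a b => ?_, fun a b => ?_⟩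
  · unfold dv
    rw [← map_add, gm_eq]
    filter_upwards [ev_diff hz a, ev_diff hz b] with k h1 h2
    have h3 : ((a + b : An X) : X → ℝ) = a.1 + b.1 := rfl
    rw [h3, fderiv_add h1 h2]
    rfl
  · unfold dv
    rw [ev_apply, ev_apply, ← map_mul, ← map_mul, ← map_add, gm_eq]
    filter_upwards [ev_diff hz a, ev_diff hz b] with k h1 h2
    have h3 : ((a * b : An X) : X → ℝ) = a.1 * b.1 := rfl
    rw [h3, fderiv_mul h1 h2]
    rfl

theorem ev_congr (hz : Tendsto z U (𝓝 0)) {a b : An X} (h : ∀ᶠ p in 𝓝 (0 : X), a.1 p = b.1 p) :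
    ev U z a = ev U z b := by
  rw [ev_apply, ev_apply, gm_eq]
  exact hz.eventually h

theorem dv_congr (hz : Tendsto z U (𝓝 0)) (c : ℕ → X) {a b : An X}
    (h : ∀ᶠ p in 𝓝 (0 : X), a.1 p = b.1 p) : dv U z c a = dv U z c b := by
  unfold dv
  rw [gm_eq]
  filter_upwards [hz.eventually h.eventually_nhds] with k hk
  rw [EventuallyEq.fderiv_eq hk]

/-- pullback along a linear map -/
noncomputable def inc (L : X →L[ℝ] X') : An X' →+* An X where
  toFun := fun g => ⟨fun p => g.1 (L p), AnalyticAt.comp_of_eq (An.ana g) (L.analyticAt 0) (map_zero L)⟩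
  map_one' := rfl
  map_mul' := fun _ _ => rfl
  map_zero' := rfl
  map_add' := fun _ _ => rfl

theorem ev_inc (L : X →L[ℝ] X') (g : An X') : ev U z (inc L g) = ev U (fun k => L (z k)) g := rfl

theorem dv_inc (hz : Tendsto z U (𝓝 0)) (L : X →L[ℝ] X') (c : ℕ → X) (g : An X') :
    dv U z c (inc L g) = dv U (fun k => L (z k)) (fun k => L (c k)) g := by
  have hz' : Tendsto (fun k => L (z k)) U (𝓝 0) := by
    have h := (L.continuous.tendsto 0).comp hz
    rwa [map_zero] at h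
  unfold dv
  rw [gm_eq]
  filter_upwards [ev_diff hz' g] with k hk
  have h1 : HasFDerivAt (fun p => g.1 (L p)) ((fderiv ℝ g.1 (L (z k))).comp L) (z k) :=
    hk.hasFDerivAt.comp (z k) L.hasFDerivAt
  have h2 : ((inc L g : An X) : X → ℝ) = fun p => g.1 (L p) := rfl
  rw [h2, h1.fderiv]
  rfl

/-- a linear form as an analytic function -/
noncomputable def lin (L : X →L[ℝ] ℝ) : An X := ⟨L, L.analyticAt 0⟩

theorem dv_lin (L : X →L[ℝ] ℝ) (c : ℕ → X) : dv U z c (lin L) = gm U fun k => L (c k) := by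
  unfold dv
  congr 1
  funext k
  have h2 : ((lin L : An X) : X → ℝ) = L := rfl
  rw [h2, L.fderiv]

/-- a directional derivative -/
noncomputable def pd (v : X) (g : An X) : An X :=
  ⟨fun p => fderiv ℝ g.1 p v,
    ((ContinuousLinearMap.apply ℝ ℝ v).analyticAt _).comp (An.ana g).fderiv⟩

theorem ev_pd (v : X) (g : An X) : ev U z (pd v g) = dv U z (fun _ => v) g := rfl

theorem gm_sum {N : ℕ} {u : ℕ → ℕ → ℝ} {ψ : ℕ → ℝ} :
    ∑ j ∈ Finset.range N, gm U (u j) * gm U ψ ^ j = 0 ↔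
      ∀ᶠ k in U, ∑ j ∈ Finset.range N, u j k * ψ k ^ j = 0 := by
  simp only [← map_pow, ← map_mul]
  rw [← map_sum, gm_eq_zero]
  simp only [Finset.sum_apply, Pi.mul_apply, Pi.pow_apply]

variable {E : Type} [NormedAddCommGroup E] [NormedSpace ℝ E]

/-- The conclusion of the elimination. -/
def Rel (U : Ultrafilter ℕ) (s ψ : ℕ → ℝ) : Prop :=
  ∃ (N : ℕ) (a : ℕ → ℝ → ℝ), (∀ j < N, AnalyticAt ℝ (a j) 0) ∧
    (∃ j < N, ¬ ∀ᶠ t in 𝓝 (0 : ℝ), a j t = 0) ∧
    ∀ᶠ k in U, ∑ j ∈ Finset.range N, a j (s k) * ψ k ^ j = 0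

/-- Every vertical derivation which kills the kernel of the evaluation kills `ψ`. -/
def Kil (U : Ultrafilter ℕ) (z : ℕ → ℝ × E) (ψ : UF U) : Prop :=
  ∀ c : ℕ → E, (∀ g, ev U z g = 0 → dv U z (fun k => (0, c k)) g = 0) →
    ∀ (N : ℕ) (a : ℕ → An (ℝ × E)), ∑ j ∈ Finset.range N, ev U z (a j) * ψ ^ j = 0 →
      ∑ j ∈ Finset.range N, dv U z (fun k => (0, c k)) (a j) * ψ ^ j = 0

/-- The case where the evaluation is injective on germs. -/
theorem elim_inj {s ψ : ℕ → ℝ} {x : ℕ → E} (hz : Tendsto (fun k => (s k, x k)) U (𝓝 0))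
    (hP : ∀ g, ev U (fun k => (s k, x k)) g = 0 → ∀ᶠ p in 𝓝 (0 : ℝ × E), g.1 p = 0)
    (halg : IsAlgebraic (ev U fun k => (s k, x k)).range (gm U ψ))
    (hK : Kil U (fun k => (s k, x k)) (gm U ψ)) : Rel U s ψ := by
  obtain ⟨m, a, ham, hsum, hW⟩ := wronsk halg (fun v : E => pd ((0 : ℝ), v)) fun v N a h => by
    simp only [ev_pd]
    refine hK (fun _ => v) (fun g hg => ?_) N a h
    rw [dv_congr hz _ (b := 0) (hP g hg)]
    exact (isDer_dv hz _).zero
  have h1 : ∀ᶠ p in 𝓝 (0 : ℝ × E), ∀ j ∈ Finset.range (m + 1), AnalyticAt ℝ (a j).1 p :=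
    (Finset.range (m + 1)).eventually_all.2 fun j _ => (An.ana (a j)).eventually_analyticAt
  obtain ⟨ρ, hρ, h2⟩ := Metric.eventually_nhds_iff_ball.1 h1
  have hA : ∀ j < m + 1, AnalyticOnNhd ℝ (a j).1 (ball 0 ρ) := fun j hj p hp =>
    h2 p hp j (Finset.mem_range.2 hj)
  have hAm := hA m (Nat.lt_succ_self m)
  have hW' : ∀ v : E, ∀ j < m + 1, ∀ p ∈ ball (0 : ℝ × E) ρ,
      (a m).1 p * fderiv ℝ (a j).1 p (0, v) - (a j).1 p * fderiv ℝ (a m).1 p (0, v) = 0 := by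
    intro v j hj p hp
    have h3 : AnalyticOnNhd ℝ (fun p => (a m).1 p * fderiv ℝ (a j).1 p (0, v) -
        (a j).1 p * fderiv ℝ (a m).1 p (0, v)) (ball 0 ρ) := fun q hq =>
      ((hAm q hq).mul (((ContinuousLinearMap.apply ℝ ℝ ((0 : ℝ), v)).analyticAt _).comp
        (hA j hj q hq).fderiv)).sub ((hA j hj q hq).mul
        (((ContinuousLinearMap.apply ℝ ℝ ((0 : ℝ), v)).analyticAt _).comp (hAm q hq).fderiv))
    exact h3.eqOn_zero_of_preconnected_of_eventuallyEq_zero (convex_ball 0 ρ).isPreconnected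
      (mem_ball_self hρ) (hP _ (hW v j hj)) hp
  have hball : ∀ (t : ℝ) (y : E), ((t, y) : ℝ × E) ∈ ball (0 : ℝ × E) ρ ↔
      t ∈ ball (0 : ℝ) ρ ∧ y ∈ ball (0 : E) ρ := by
    intro t y
    rw [← Prod.mk_zero_zero, ← ball_prod_same]
    rfl
  have hslice : ∀ j < m + 1, ∀ t ∈ ball (0 : ℝ) ρ,
      AnalyticOnNhd ℝ (fun y : E => (a j).1 (t, y)) (ball 0 ρ) := fun j hj t ht y hy =>
    AnalyticAt.comp (f := fun y : E => (t, y)) (hA j hj _ ((hball t y).2 ⟨ht, hy⟩))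
      (analyticAt_const.prod analyticAt_id)
  have hfd : ∀ j < m + 1, ∀ t ∈ ball (0 : ℝ) ρ, ∀ y ∈ ball (0 : E) ρ, ∀ v,
      fderiv ℝ (fun y : E => (a j).1 (t, y)) y v = fderiv ℝ (a j).1 (t, y) (0, v) := by
    intro j hj t ht y hy v
    have h3 := (hA j hj _ ((hball t y).2 ⟨ht, hy⟩)).differentiableAt.hasFDerivAt.comp y
      (hasFDerivAt_prodMk_right (𝕜 := ℝ) t y)
    have h4 : (fun y : E => (a j).1 (t, y)) = (a j).1 ∘ fun y : E => (t, y) := rfl
    rw [h4, h3.fderiv]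
    rfl
  have hslice' : ∀ j < m + 1, ∀ y ∈ ball (0 : E) ρ,
      AnalyticOnNhd ℝ (fun t : ℝ => (a j).1 (t, y)) (ball 0 ρ) := fun j hj y hy t ht =>
    AnalyticAt.comp (f := fun t : ℝ => (t, y)) (hA j hj _ ((hball t y).2 ⟨ht, hy⟩))
      (analyticAt_id.prod analyticAt_const)
  obtain ⟨y, hy, hy0⟩ : ∃ y ∈ ball (0 : E) ρ, ¬ ∀ᶠ t in 𝓝 (0 : ℝ), (a m).1 (t, y) = 0 := by
    by_contra hcon
    push Not at hcon
    refine ham ?_
    rw [ev_congr hz (b := 0), map_zero]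
    filter_upwards [ball_mem_nhds (0 : ℝ × E) hρ] with p hp
    obtain ⟨h3, h4⟩ := (hball p.1 p.2).1 hp
    exact (hslice' m (Nat.lt_succ_self m) p.2 h4).eqOn_zero_of_preconnected_of_eventuallyEq_zero
      (convex_ball 0 ρ).isPreconnected (mem_ball_self hρ) (hcon p.2 h4) h3
  refine ⟨m + 1, fun j t => (a j).1 (t, y), fun j hj => hslice' j hj y hy 0 (mem_ball_self hρ),
    ⟨m, Nat.lt_succ_self m, hy0⟩, ?_⟩
  simp only [ev_apply] at hsum
  rw [ev_apply, Ne, gm_eq_zero, ← Ultrafilter.eventually_not] at ham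
  filter_upwards [gm_sum.1 hsum, ham, hz.eventually (ball_mem_nhds (0 : ℝ × E) hρ)]
    with k hk1 hk2 hk3
  obtain ⟨h3, h4⟩ := (hball _ _).1 hk3
  refine (mul_eq_zero.1 ?_).resolve_left hk2
  have h5 : ∀ j ∈ Finset.range (m + 1), (a m).1 (s k, x k) * ((a j).1 (s k, y) * ψ k ^ j) =
      (a m).1 (s k, y) * ((a j).1 (s k, x k) * ψ k ^ j) := by
    intro j hj
    have hj' := Finset.mem_range.1 hj
    have h6 := two_point (hslice j hj' _ h3) (hslice m (Nat.lt_succ_self m) _ h3)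
      (fun w hw v => by
        rw [hfd j hj' _ h3 w hw, hfd m (Nat.lt_succ_self m) _ h3 w hw]
        exact hW' v j hj' _ ((hball _ _).2 ⟨h3, hw⟩)) h4 hk2 hy
    linear_combination (-ψ k ^ j) * h6
  rw [Finset.mul_sum, Finset.sum_congr rfl h5, ← Finset.mul_sum, hk1, mul_zero]

end Vale.Agent.P218LJ
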