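import Vale.Agent.P218LJ.Elim

/-!
# P218 (helper40): elimination of the vertical variables
-/

open Filter Topology Metric Polynomial

namespace Vale.Agent.P218LJ

variable {U : Ultrafilter ℕ}

/-- One step of the elimination. -/
theorem elim_step {E E' : Type} [NormedAddCommGroup E] [NormedSpace ℝ E] [NormedAddCommGroup E']
    [NormedSpace ℝ E'] (π : E →L[ℝ] E') (ι : E' →L[ℝ] E) (φ : E →L[ℝ] ℝ) (v : E)
    (hsum : ∀ x, ι (π x) + φ x • v = x) (h1 : ∀ x', π (ι x') = x') (h2 : π v = 0)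
    (h3 : ∀ x', φ (ι x') = 0) (h4 : φ v = 1) {s : ℕ → ℝ} {x : ℕ → E} {ψ : UF U}
    (hz : Tendsto (fun k => (s k, x k)) U (𝓝 0)) (F : An (ℝ × E))
    (hF : ev U (fun k => (s k, x k)) F = 0) (hFv : ¬ ∀ᶠ t in 𝓝 (0 : ℝ), F.1 (0, t • v) = 0)
    (halg : IsAlgebraic (ev U fun k => (s k, x k)).range ψ)
    (hK : Kil U (fun k => (s k, x k)) ψ) :
    IsAlgebraic (ev U fun k => (s k, π (x k))).range ψ ∧ Kil U (fun k => (s k, π (x k))) ψ := by
  obtain ⟨L, hL⟩ : ∃ L : ℝ × E →L[ℝ] ℝ × E', ∀ p, L p = (p.1, π p.2) :=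
    ⟨(ContinuousLinearMap.id ℝ ℝ).prodMap π, fun _ => rfl⟩
  obtain ⟨Y, hY⟩ : ∃ Y : ℝ × E →L[ℝ] ℝ, ∀ p, Y p = φ p.2 :=
    ⟨φ.comp (ContinuousLinearMap.snd ℝ ℝ E), fun _ => rfl⟩
  obtain ⟨z, hzd⟩ : ∃ z : ℕ → ℝ × E, z = fun k => (s k, x k) := ⟨_, rfl⟩
  have hz' : (fun k => (s k, π (x k))) = fun k => L (z k) := by
    funext k
    rw [hL, hzd]
  rw [hz']
  rw [← hzd] at hz hF halg hK
  obtain ⟨y, hy⟩ : ∃ y, y = ev U z (lin Y) := ⟨_, rfl⟩
  obtain ⟨e', he'⟩ : ∃ e', e' = ev U fun k => L (z k) := ⟨_, rfl⟩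
  have hcomp : (ev U z).comp (inc L) = e' := by
    rw [he']
    rfl
  have hev : ∀ G : (An (ℝ × E'))[X], ev U z (eval₂ (inc L) (lin Y) G) = eval₂ e' y G := by
    intro G
    rw [hom_eval₂, hcomp, hy]
  have hF2 : ¬ ∀ᶠ t in 𝓝 (0 : ℝ), (F ^ 2 : An (ℝ × E)).1 (0, t • v) = 0 := fun h =>
    hFv (h.mono fun t ht => pow_eq_zero_iff (two_ne_zero) |>.1 ht)
  obtain ⟨d, hd⟩ := div_dir π ι φ v hsum (An.ana (F ^ 2)) hF2
  have hdiv : ∀ g : An (ℝ × E), ∃ (q : An (ℝ × E)) (r : Fin d → An (ℝ × E')),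
      ∀ᶠ p in 𝓝 (0 : ℝ × E), g.1 p =
        (q * F ^ 2 + eval₂ (inc L) (lin Y) (∑ i : Fin d, C (r i) * X ^ (i : ℕ))).1 p := by
    intro g
    obtain ⟨q, r, hq, hr, h⟩ := hd g.1 (An.ana g)
    refine ⟨⟨q, hq⟩, fun i => ⟨r i, hr i⟩, h.mono fun p hp => ?_⟩
    rw [hp, eval₂_finsetSum]
    simp only [eval₂_mul, eval₂_C, eval₂_X_pow, Subring.coe_add, Subring.coe_mul, Pi.add_apply,
      Pi.mul_apply, AddSubmonoidClass.coe_finsetSum, Finset.sum_apply, Subring.coe_pow,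
      Pi.pow_apply]
    congr 1
    refine Finset.sum_congr rfl fun i _ => ?_
    rw [← hL, ← hY]
    rfl
  have hval : ∀ g : An (ℝ × E), ∃ r : Fin d → An (ℝ × E'),
      ev U z g = eval₂ e' y (∑ i : Fin d, C (r i) * X ^ (i : ℕ)) ∧ ∀ c,
        dv U z c g = dv U z c (eval₂ (inc L) (lin Y) (∑ i : Fin d, C (r i) * X ^ (i : ℕ))) := by
    intro g
    obtain ⟨q, r, h⟩ := hdiv g
    refine ⟨r, ?_, fun c => ?_⟩
    · rw [ev_congr hz h, map_add, map_mul, map_pow, hF, hev]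
      simp
    · have hD := isDer_dv hz c
      rw [dv_congr hz c h, hD.add, hD.mul, hD.pow F 1, map_pow, hF]
      simp
  obtain ⟨M, hMm, hMy⟩ : ∃ M : (An (ℝ × E'))[X], M.Monic ∧ eval₂ e' y M = 0 := by
    obtain ⟨r, hr, -⟩ := hval (lin Y ^ d)
    refine ⟨X ^ d - ∑ i : Fin d, C (r i) * X ^ (i : ℕ), monic_X_pow_sub (degree_sum_fin_lt r), ?_⟩
    rw [eval₂_sub, ← hr, eval₂_X_pow, map_pow, ← hy, sub_self]
  constructor
  · rw [← he']
    refine alg_trans (B := (ev U z).range) ?_ ?_ halg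
    · rintro _ ⟨r, rfl⟩
      exact ⟨inc L r, by rw [← hcomp]; rfl⟩
    · have hint : IsIntegral e'.range y := by
        refine ⟨M.map e'.rangeRestrict, hMm.map _, ?_⟩
        rw [eval₂_map]
        exact hMy
      rintro _ ⟨g, rfl⟩
      obtain ⟨r, hr, -⟩ := hval g
      rw [hr, eval₂_finsetSum]
      refine IsIntegral.isAlgebraic (IsIntegral.sum _ fun i _ => ?_)
      rw [eval₂_mul, eval₂_C, eval₂_X_pow]
      exact (isIntegral_algebraMap (x := e'.rangeRestrict (r i))).mul (hint.pow _)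
  · intro c' hc'
    rw [← he'] at hc'
    obtain ⟨cn, hcn⟩ := ext_der hc' (y := y) ⟨M, (hMm.map e').ne_zero, hMy⟩
    obtain ⟨cn, rfl⟩ := gm_surj cn
    have hc1 : (fun k => L ((0 : ℝ), ι (c' k) + cn k • v)) = fun k => ((0 : ℝ), c' k) := by
      funext k
      rw [hL]
      simp [h1, h2]
    have hdi : ∀ a, dv U z (fun k => ((0 : ℝ), ι (c' k) + cn k • v)) (inc L a) =
        dv U (fun k => L (z k)) (fun k => ((0 : ℝ), c' k)) a := fun a => by
      rw [dv_inc hz, hc1]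
    have hD := isDer_dv hz fun k => ((0 : ℝ), ι (c' k) + cn k • v)
    have hkill := hcn (fun G => dv U z (fun k => ((0 : ℝ), ι (c' k) + cn k • v))
      (eval₂ (inc L) (lin Y) G)) ⟨fun a b => by rw [eval₂_add, hD.add], fun a b => by
        rw [eval₂_mul, hD.mul, hev, hev]
        rfl⟩ (fun a => by rw [eval₂_C, hdi]) (by
        rw [eval₂_X, dv_lin]
        congr 1
        funext k
        rw [hY]
        simp [h3, h4])
    intro N a ha
    have h5 := hK (fun k => ι (c' k) + cn k • v) (fun g hg => by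
      obtain ⟨r, hr1, hr2⟩ := hval g
      rw [hr2]
      exact hkill _ (hr1 ▸ hg)) N (fun j => inc L (a j)) ha
    simpa only [hdi] using h5

/-- Elimination of all the vertical variables. -/
theorem elim {s ψ : ℕ → ℝ} (hs : ∀ᶠ k in U, s k ≠ 0) (n : ℕ) :
    ∀ (E : Type) [NormedAddCommGroup E] [NormedSpace ℝ E] [FiniteDimensional ℝ E],
      Module.finrank ℝ E = n → ∀ x : ℕ → E, Tendsto (fun k => (s k, x k)) U (𝓝 0) →
      IsAlgebraic (ev U fun k => (s k, x k)).range (gm U ψ) →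
      Kil U (fun k => (s k, x k)) (gm U ψ) → Rel U s ψ := by
  induction n using Nat.strong_induction_on with
  | _ n ih =>
    intro E _ _ _ hn x hz halg hK
    by_cases hP : ∀ g, ev U (fun k => (s k, x k)) g = 0 → ∀ᶠ p in 𝓝 (0 : ℝ × E), g.1 p = 0
    · exact elim_inj hz hP halg hK
    push Not at hP
    obtain ⟨g, hg, hg0⟩ := hP
    obtain ⟨e, G, hG, hgG, hG0⟩ := div_pow_fst (An.ana g) (fun h => (hg0.and_eventually h).exists.elim
      fun p hp => hp.1 hp.2)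
    have hGz : ∀ᶠ k in U, G (s k, x k) = 0 := by
      rw [ev_apply, gm_eq_zero] at hg
      filter_upwards [hg, hs, hz.eventually hgG] with k h1 h2 h3
      rw [h1] at h3
      exact (mul_eq_zero.1 h3.symm).resolve_left (pow_ne_zero _ h2)
    have hG00 : G 0 = 0 :=
      tendsto_nhds_unique (hG.continuousAt.tendsto.comp hz)
        (tendsto_const_nhds.congr' (hGz.mono fun k hk => hk.symm))
    have hGs : AnalyticAt ℝ (fun y : E => G (0, y)) 0 :=
      AnalyticAt.comp_of_eq (f := fun y : E => ((0 : ℝ), y)) hG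
        (analyticAt_const.prod analyticAt_id) rfl
    obtain ⟨v, hv⟩ := exists_line hGs hG0
    have hv0 : v ≠ 0 := by
      rintro rfl
      exact hv (Eventually.of_forall fun t => by rw [smul_zero]; exact hG00)
    obtain ⟨E', π, φ, hdim, h0, h1, h2, h3, h4⟩ := exists_split hv0
    obtain ⟨halg', hK'⟩ := elim_step π E'.subtypeL φ v h0 h1 h2 h3 h4 hz ⟨G, hG⟩
      (by rw [ev_apply, gm_eq_zero]; exact hGz) hv halg hK
    refine ih (Module.finrank ℝ E') (by omega) E' rfl (fun k => π (x k)) ?_ halg' hK'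
    have h5 := (((ContinuousLinearMap.id ℝ ℝ).prodMap π).continuous.tendsto 0).comp hz
    rw [map_zero] at h5
    exact h5

/-- If every admissible vertical direction kills the analytic function `Ψ`, then the values
of `Ψ` satisfy a nontrivial polynomial relation with coefficients analytic in `s`. -/
theorem elim_main {E : Type} [NormedAddCommGroup E] [NormedSpace ℝ E] [FiniteDimensional ℝ E]
    {s : ℕ → ℝ} (hs : ∀ᶠ k in U, s k ≠ 0) {x : ℕ → E}
    (hz : Tendsto (fun k => (s k, x k)) U (𝓝 0)) {Ψ : ℝ × E → ℝ} (hΨ : AnalyticAt ℝ Ψ 0)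
    (hK : ∀ c : ℕ → E, (∀ g : ℝ × E → ℝ, AnalyticAt ℝ g 0 → (∀ᶠ k in U, g (s k, x k) = 0) →
      ∀ᶠ k in U, fderiv ℝ g (s k, x k) (0, c k) = 0) →
      ∀ᶠ k in U, fderiv ℝ Ψ (s k, x k) (0, c k) = 0) :
    Rel U s fun k => Ψ (s k, x k) := by
  obtain ⟨P, hP⟩ : ∃ P : An (ℝ × E), P = ⟨Ψ, hΨ⟩ := ⟨_, rfl⟩
  have hev : gm U (fun k => Ψ (s k, x k)) = ev U (fun k => (s k, x k)) P := by
    rw [hP]
    rfl
  refine elim hs _ E rfl x hz ?_ ?_
  · rw [hev]
    exact isAlgebraic_algebraMap (R := (ev U fun k => (s k, x k)).range) ⟨_, P, rfl⟩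
  · intro c hc N a ha
    have hD := isDer_dv hz fun k => ((0 : ℝ), c k)
    have h1 : dv U (fun k => (s k, x k)) (fun k => ((0 : ℝ), c k)) P = 0 := by
      rw [hP]
      exact gm_eq_zero.2 (hK c fun g hg h => gm_eq_zero.1 (hc ⟨g, hg⟩ (gm_eq_zero.2 h)))
    have h2 : ∀ j, dv U (fun k => (s k, x k)) (fun k => ((0 : ℝ), c k)) (P ^ j) = 0 := by
      intro j
      rcases j with _ | j
      · rw [pow_zero, hD.one]
      · rw [hD.pow, h1, mul_zero]
    have h3 : ∀ N, dv U (fun k => (s k, x k)) (fun k => ((0 : ℝ), c k))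
        (∑ j ∈ Finset.range N, a j * P ^ j) = ∑ j ∈ Finset.range N,
          dv U (fun k => (s k, x k)) (fun k => ((0 : ℝ), c k)) (a j) *
            ev U (fun k => (s k, x k)) P ^ j := by
      intro N
      induction N with
      | zero => simpa using hD.zero
      | succ N ih =>
        rw [Finset.sum_range_succ, Finset.sum_range_succ, hD.add, ih, hD.mul, h2, map_pow]
        ring
    rw [hev] at ha ⊢
    rw [← h3]
    refine hc _ ?_
    rw [map_sum]
    simpa only [map_mul, map_pow] using ha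

end Vale.Agent.P218LJ
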