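import Vale.Agent.P218LJ.Elim2
import Vale.Agent.P298.H744.CS

/-!
# P218 (helper40): the Newton polygon argument and the curve selection argument
-/

open Filter Topology Metric

namespace Vale.Agent.P218LJ

theorem newton {U : Ultrafilter ℕ} {s ψ : ℕ → ℝ} (hs0 : Tendsto s U (𝓝 0))
    (hs : ∀ᶠ k in U, s k ≠ 0) (hrel : Rel U s ψ)
    (hsmall : ∀ j : ℕ, Tendsto (fun k => s k * (ψ k / s k ^ 2) ^ j) U (𝓝 0)) :
    ∃ C : ℝ, ∀ᶠ k in U, ψ k ≤ C * s k ^ 2 := by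
  classical
  by_contra hcon
  push Not at hcon
  obtain ⟨ρ, hρ⟩ : ∃ ρ : ℕ → ℝ, ρ = fun k => ψ k / s k ^ 2 := ⟨_, rfl⟩
  have hρ' : ∀ k, ψ k / s k ^ 2 = ρ k := fun k => by rw [hρ]
  simp only [hρ'] at hsmall
  have hψ : ∀ᶠ k in U, ψ k = s k ^ 2 * ρ k := by
    filter_upwards [hs] with k hk
    rw [← hρ']
    field_simp
  have htop : Tendsto ρ U atTop := by
    refine tendsto_atTop.2 fun C => ?_
    filter_upwards [hcon C, hs, hψ] with k h1 h2 h3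
    rw [h3, mul_comm] at h1
    exact (lt_of_mul_lt_mul_left h1 (sq_nonneg _)).le
  have hinv : Tendsto (fun k => (ρ k)⁻¹) U (𝓝 0) := htop.inv_tendsto_atTop
  have hρ0 : ∀ᶠ k in U, ρ k ≠ 0 := htop.eventually (eventually_ne_atTop 0)
  obtain ⟨N, a, ha, ⟨j1, hj1, haj1⟩, hsum⟩ := hrel
  have hex : ∀ j, ∃ (e : ℕ) (u : ℝ → ℝ), j < N → (¬ ∀ᶠ t in 𝓝 (0 : ℝ), a j t = 0) →
      AnalyticAt ℝ u 0 ∧ u 0 ≠ 0 ∧ ∀ᶠ t in 𝓝 (0 : ℝ), a j t = t ^ e * u t := by
    intro j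
    by_cases h : j < N ∧ ¬ ∀ᶠ t in 𝓝 (0 : ℝ), a j t = 0
    · obtain ⟨e, u, h1, h2, h3⟩ := (ha j h.1).exists_eventuallyEq_pow_smul_nonzero_iff.2 h.2
      exact ⟨e, u, fun _ _ => ⟨h1, h2, h3.mono fun t ht => by simpa using ht⟩⟩
    · exact ⟨0, 0, fun h1 h2 => absurd ⟨h1, h2⟩ h⟩
  choose e u heu using hex
  obtain ⟨J, hJ⟩ : ∃ J : Finset ℕ, ∀ j, j ∈ J ↔ j < N ∧ ¬ ∀ᶠ t in 𝓝 (0 : ℝ), a j t = 0 :=
    ⟨(Finset.range N).filter fun j => ¬ ∀ᶠ t in 𝓝 (0 : ℝ), a j t = 0, fun j => by simp⟩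
  obtain ⟨j2, hj2, hmin⟩ := J.exists_min_image (fun j => e j + 2 * j) ⟨j1, (hJ j1).2 ⟨hj1, haj1⟩⟩
  obtain ⟨j0, hj0, hmax⟩ := (J.filter fun j => e j + 2 * j = e j2 + 2 * j2).exists_max_image id
    ⟨j2, Finset.mem_filter.2 ⟨hj2, rfl⟩⟩
  obtain ⟨hj0J, hj0w⟩ := Finset.mem_filter.1 hj0
  obtain ⟨w, hw⟩ : ∃ w, w = e j2 + 2 * j2 := ⟨_, rfl⟩
  rw [← hw] at hmin hmax hj0w
  have hT : ∀ j ∈ Finset.range N, Tendsto (fun k => a j (s k) * ψ k ^ j / (s k ^ w * ρ k ^ j0)) U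
      (𝓝 (if j = j0 then u j0 0 else 0)) := by
    intro j hj
    by_cases hjJ : j ∈ J
    · obtain ⟨h1, -, h3⟩ := heu j ((hJ j).1 hjJ).1 ((hJ j).1 hjJ).2
      have hu : Tendsto (fun k => u j (s k)) U (𝓝 (u j 0)) := h1.continuousAt.tendsto.comp hs0
      by_cases hjj : j = j0
      · subst hjj
        rw [if_pos rfl]
        refine hu.congr' ?_
        filter_upwards [hs0.eventually h3, hs, hψ, hρ0] with k k1 k2 k3 k4
        rw [k1, k3, ← hj0w]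
        field_simp
        ring
      rw [if_neg hjj]
      rcases (hmin j hjJ).lt_or_eq with h4 | h4
      · obtain ⟨m, hm⟩ := Nat.exists_eq_add_of_lt h4
        have h5 := ((hu.mul (hs0.pow m)).mul (hsmall j)).mul (hinv.pow j0)
        rw [mul_zero, zero_mul] at h5
        refine h5.congr' ?_
        filter_upwards [hs0.eventually h3, hs, hψ, hρ0] with k k1 k2 k3 k4
        have h6 : s k ^ e j * (s k ^ 2) ^ j = s k ^ w * s k ^ m * s k := by
          rw [← pow_mul, ← pow_add, hm, pow_add, pow_add, pow_one]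
        rw [k1, k3, mul_pow, inv_pow]
        field_simp
        linear_combination (-(u j (s k))) * h6
      · have h5 : j ≤ j0 := hmax j (Finset.mem_filter.2 ⟨hjJ, h4.symm⟩)
        obtain ⟨m, hm⟩ := Nat.exists_eq_add_of_lt (lt_of_le_of_ne h5 hjj)
        have h6 := hu.mul (hinv.pow (m + 1))
        rw [zero_pow (Nat.succ_ne_zero m), mul_zero] at h6
        refine h6.congr' ?_
        filter_upwards [hs0.eventually h3, hs, hψ, hρ0] with k k1 k2 k3 k4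
        rw [k1, k3, h4, hm, inv_pow]
        field_simp
        ring
    · have h1 : ∀ᶠ t in 𝓝 (0 : ℝ), a j t = 0 := by
        by_contra h2
        exact hjJ ((hJ j).2 ⟨Finset.mem_range.1 hj, h2⟩)
      have h2 : j ≠ j0 := fun h => hjJ (h ▸ hj0J)
      rw [if_neg h2]
      refine tendsto_const_nhds.congr' ?_
      filter_upwards [hs0.eventually h1] with k hk
      rw [hk, zero_mul, zero_div]
  have h1 := tendsto_finsetSum _ hT
  rw [Finset.sum_ite_eq' (Finset.range N) j0, if_pos (Finset.mem_range.2 ((hJ j0).1 hj0J).1)] at h1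
  refine (heu j0 ((hJ j0).1 hj0J).1 ((hJ j0).1 hj0J).2).2.1
    (tendsto_nhds_unique h1 (tendsto_const_nhds.congr' ?_))
  filter_upwards [hsum] with k hk
  rw [← Finset.sum_div, hk, zero_div]

theorem small_aux {s t A ρ : ℝ} {j n : ℕ} (hs : |s| ≤ 1) (hA : 0 ≤ A) (hρ0 : 0 ≤ ρ)
    (hρ : ρ ≤ t + A) (h : t ^ n * s ^ 2 < 1) (hj : 4 * j ≤ n) :
    |s * ρ ^ j| ≤ (1 + A) ^ j * √|s| := by
  obtain ⟨m, hm⟩ : ∃ m, m = max 1 t := ⟨_, rfl⟩
  have hm1 : 1 ≤ m := hm ▸ le_max_left _ _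
  have hmt : t ≤ m := hm ▸ le_max_right _ _
  have h1 : ρ ≤ (1 + A) * m := by nlinarith
  have h2 : |s| * (m ^ j) ^ 2 ≤ 1 := by
    rcases le_total t 1 with h3 | h3
    · rw [hm, max_eq_left h3]
      simpa using hs
    · rw [hm, max_eq_right h3]
      have h4 : t ^ (4 * j) ≤ t ^ n := pow_le_pow_right₀ h3 hj
      have h5 : (|s| * (t ^ j) ^ 2) ^ 2 ≤ 1 := by
        calc (|s| * (t ^ j) ^ 2) ^ 2 = t ^ (4 * j) * s ^ 2 := by
              rw [mul_pow, sq_abs]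
              ring
          _ ≤ t ^ n * s ^ 2 := mul_le_mul_of_nonneg_right h4 (sq_nonneg _)
          _ ≤ 1 := h.le
      exact (sq_le_one_iff₀ (by positivity)).1 h5
  have h3 : |s| * m ^ j ≤ √|s| := by
    refine Real.le_sqrt_of_sq_le ?_
    calc (|s| * m ^ j) ^ 2 = |s| * (|s| * (m ^ j) ^ 2) := by ring
      _ ≤ |s| * 1 := mul_le_mul_of_nonneg_left h2 (abs_nonneg _)
      _ = |s| := mul_one _
  calc |s * ρ ^ j| = |s| * ρ ^ j := by rw [abs_mul, abs_of_nonneg (pow_nonneg hρ0 j)]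
    _ ≤ |s| * ((1 + A) * m) ^ j :=
        mul_le_mul_of_nonneg_left (pow_le_pow_left₀ hρ0 h1 j) (abs_nonneg _)
    _ = (1 + A) ^ j * (|s| * m ^ j) := by
        rw [mul_pow]
        ring
    _ ≤ (1 + A) ^ j * √|s| := mul_le_mul_of_nonneg_left h3 (by positivity)

variable {E : Type} [NormedAddCommGroup E] [InnerProductSpace ℝ E] [FiniteDimensional ℝ E]

theorem analyticAt_gradSq {f : E → ℝ} {z : E} (hf : AnalyticAt ℝ f z) :
    AnalyticAt ℝ (fun x => ‖fderiv ℝ f x‖ ^ 2) z := by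
  have h1 : (fun x => ‖fderiv ℝ f x‖ ^ 2) =
      fun x => ∑ i, (fderiv ℝ f x (stdOrthonormalBasis ℝ E i)) ^ 2 := by
    funext x
    exact (stdOrthonormalBasis ℝ E).norm_dual _
  rw [h1]
  refine Finset.analyticAt_fun_sum _ fun i _ => AnalyticAt.pow ?_ 2
  exact ((ContinuousLinearMap.apply ℝ ℝ (stdOrthonormalBasis ℝ E i)).analyticAt _).comp hf.fderiv

/-- Near a zero, an analytic function is small compared with its gradient. -/
theorem grad_big {f : E → ℝ} {z : E} (hf : AnalyticAt ℝ f z) (hz : f z = 0) (C : ℝ) :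
    ∀ᶠ x in 𝓝 z, C * f x ^ 2 ≤ ‖fderiv ℝ f x‖ ^ 2 := by
  by_contra hcon
  push Not at hcon
  have hadd : AnalyticAt ℝ (fun p : E => z + p) 0 := analyticAt_const.add analyticAt_id
  have hG : AnalyticAt ℝ (fun p : E => ‖fderiv ℝ f (z + p)‖ ^ 2 - C * f (z + p) ^ 2) 0 :=
    AnalyticAt.comp_of_eq (g := fun x => ‖fderiv ℝ f x‖ ^ 2 - C * f x ^ 2)
      ((analyticAt_gradSq hf).sub (analyticAt_const.mul (hf.pow 2))) hadd (add_zero z)
  have hfr : ∃ᶠ p in 𝓝 (0 : E), ‖fderiv ℝ f (z + p)‖ ^ 2 - C * f (z + p) ^ 2 < 0 := by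
    have h1 : Tendsto (fun x : E => x - z) (𝓝 z) (𝓝 0) := by
      have h : Continuous fun x : E => x - z := by fun_prop
      simpa using h.tendsto z
    refine h1.frequently (hcon.mono fun x hx => ?_)
    rw [add_sub_cancel]
    linarith
  obtain ⟨σ, hσ, hσ0, hneg⟩ := Vale.Agent.P298.H744.curve_selection hG hfr
  have hγ : AnalyticAt ℝ (fun t => z + σ t) 0 := analyticAt_const.add hσ
  have hγ0 : z + σ 0 = z := by rw [hσ0, add_zero]
  have hφ : AnalyticAt ℝ (fun t => f (z + σ t)) 0 := AnalyticAt.comp_of_eq hf hγ hγ0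
  have hγt : Tendsto (fun t => z + σ t) (𝓝 0) (𝓝 z) := by
    have h := hγ.continuousAt.tendsto
    rwa [hγ0] at h
  obtain ⟨K, hK⟩ : ∃ K, K = (|C| + 1) * (‖deriv σ 0‖ + 1) := ⟨_, rfl⟩
  have hb1 : ∀ᶠ t in 𝓝 (0 : ℝ), ‖deriv σ t‖ < ‖deriv σ 0‖ + 1 :=
    hσ.deriv.continuousAt.norm.eventually_lt continuousAt_const (lt_add_one _)
  have hb : ∀ᶠ t in 𝓝[>] (0 : ℝ), f (z + σ t) ≠ 0 ∧
      ‖deriv (fun t => f (z + σ t)) t‖ ≤ K * ‖f (z + σ t)‖ := by
    filter_upwards [hneg, mem_nhdsWithin_of_mem_nhds hb1,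
      mem_nhdsWithin_of_mem_nhds hσ.eventually_analyticAt,
      mem_nhdsWithin_of_mem_nhds (hγt.eventually hf.eventually_analyticAt)] with t h1 h2 h3 h4
    refine ⟨fun h5 => ?_, ?_⟩
    · rw [h5] at h1
      nlinarith [sq_nonneg ‖fderiv ℝ f (z + σ t)‖]
    · have h5 : HasDerivAt (fun t => f (z + σ t)) (fderiv ℝ f (z + σ t) (deriv σ t)) t :=
        h4.differentiableAt.hasFDerivAt.comp_hasDerivAt t
          (h3.differentiableAt.hasDerivAt.const_add z)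
      rw [h5.deriv, hK]
      have h6 : ‖fderiv ℝ f (z + σ t)‖ ≤ (|C| + 1) * ‖f (z + σ t)‖ := by
        refine (sq_le_sq₀ (norm_nonneg _) (by positivity)).1 ?_
        rw [mul_pow, Real.norm_eq_abs, sq_abs]
        have h7 : C ≤ (|C| + 1) ^ 2 := by nlinarith [le_abs_self C, abs_nonneg C]
        nlinarith [sq_nonneg (f (z + σ t))]
      calc ‖fderiv ℝ f (z + σ t) (deriv σ t)‖ ≤ ‖fderiv ℝ f (z + σ t)‖ * ‖deriv σ t‖ :=
            ContinuousLinearMap.le_opNorm _ _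
        _ ≤ (|C| + 1) * ‖f (z + σ t)‖ * (‖deriv σ 0‖ + 1) :=
            mul_le_mul h6 h2.le (norm_nonneg _) (by positivity)
        _ = (|C| + 1) * (‖deriv σ 0‖ + 1) * ‖f (z + σ t)‖ := by ring
  have hb0 : ‖deriv (fun t => f (z + σ t)) 0‖ ≤ K * ‖f (z + σ 0)‖ :=
    le_of_tendsto_of_tendsto (hφ.deriv.continuousAt.norm.tendsto.mono_left nhdsWithin_le_nhds)
      ((continuousAt_const.mul hφ.continuousAt.norm).tendsto.mono_left nhdsWithin_le_nhds)
      (hb.mono fun t ht => ht.2)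
  obtain ⟨ε, hε, h1⟩ := Metric.eventually_nhds_iff.1
    ((eventually_nhdsWithin_iff.1 hb).and hφ.eventually_analyticAt)
  have h2 : ∀ t ∈ Set.Icc (0 : ℝ) (ε / 2), dist t 0 < ε := fun t ht => by
    rw [Real.dist_eq, sub_zero, abs_of_nonneg ht.1]
    linarith [ht.2]
  have h3 := eq_zero_of_abs_deriv_le_mul_abs_self_of_eq_zero_right
    (f := fun t => f (z + σ t)) (f' := deriv fun t => f (z + σ t)) (K := K) (a := 0) (b := ε / 2)
    (fun t ht => (h1 (h2 t ht)).2.continuousAt.continuousWithinAt)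
    (fun t ht => (h1 (h2 t (Set.Ico_subset_Icc_self ht))).2.differentiableAt.hasDerivAt.hasDerivWithinAt)
    (by simp only [hγ0, hz]) (fun t ht => by
      rcases ht.1.eq_or_lt with h | h
      · rw [← h]
        exact hb0
      · exact ((h1 (h2 t (Set.Ico_subset_Icc_self ht))).1 h).2)
  have h4 : ε / 2 ∈ Set.Icc (0 : ℝ) (ε / 2) := ⟨by linarith, le_rfl⟩
  exact ((h1 (h2 _ h4)).1 (show (0 : ℝ) < ε / 2 by linarith)).1 (h3 _ h4)

end Vale.Agent.P218LJ
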